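import Vale.Agent.P042.H779.AbLaw
import Vale.Agent.P042.H461.Ent

/-!
# P042, H2.6 (C): from the uniform reference to another reference, with pins

`hp w μ A B` is the component in `B` of the measure `μ` pinned at `A`, relative to the weights `w`.
`hp_change`: the change of reference.  `own_sum`: the level `d` of the pinned measure relative to
`p` is bounded by the levels `e ≤ d` relative to `u`.
-/

set_option autoImplicit false
set_option linter.unusedSectionVars false

namespace Vale.Agent.P042.H565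

open Finset Function
open Vale.Agent.P042.H779 (marg)
open Vale.Agent.P042.H779.Ab (gdw)
open Vale.Agent.P042.H461 (W av sum_av av_of_inv Inv exch W_update W_nonneg)

section comb
variable {ι : Type*} [DecidableEq ι]

lemma sum_chain (D : Finset ι) (F : Finset ι → Finset ι → ℝ) :
    ∑ C ∈ D.powerset, ∑ E ∈ C.powerset, F C E
      = ∑ E ∈ D.powerset, ∑ C ∈ (D \ E).powerset, F (E ∪ C) E := by
  rw [Finset.sum_sigma', Finset.sum_sigma']
  refine Finset.sum_bij' (fun p _ => ⟨p.2, p.1 \ p.2⟩) (fun p _ => ⟨p.1 ∪ p.2, p.1⟩) ?_ ?_ ?_ ?_ ?_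
  · rintro ⟨C, E⟩ hp
    simp only [mem_sigma, mem_powerset] at hp ⊢
    exact ⟨hp.2.trans hp.1, sdiff_subset_sdiff hp.1 (le_refl _)⟩
  · rintro ⟨E, C⟩ hp
    simp only [mem_sigma, mem_powerset] at hp ⊢
    exact ⟨union_subset hp.1 (hp.2.trans sdiff_subset), subset_union_left⟩
  · rintro ⟨C, E⟩ hp
    simp only [mem_sigma, mem_powerset] at hp
    simp only [Sigma.mk.injEq, heq_eq_eq, and_true]
    exact union_sdiff_of_subset hp.2
  · rintro ⟨E, C⟩ hp
    simp only [mem_sigma, mem_powerset] at hp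
    simp only [Sigma.mk.injEq, heq_eq_eq, true_and]
    exact union_sdiff_cancel_left (disjoint_of_subset_right hp.2 disjoint_sdiff)
  · rintro ⟨C, E⟩ hp
    simp only [mem_sigma, mem_powerset] at hp
    simp only
    rw [union_sdiff_of_subset hp.2]

lemma prod_add_neg_one (S : Finset ι) (r : ι → ℝ) :
    ∏ i ∈ S, (r i - 1) = ∑ C ∈ S.powerset, (-1 : ℝ) ^ (S.card - C.card) * ∏ i ∈ C, r i := by
  have h := Finset.prod_add r (fun _ => (-1 : ℝ)) S
  simp only [← sub_eq_add_neg] at h
  rw [h]
  refine sum_congr rfl fun C hC => ?_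
  rw [prod_const, card_sdiff_of_subset (mem_powerset.mp hC)]
  ring

/-- `e_m(ρ) ≤ (∑ ρ)^m / m!` -/
lemma esymm_le (V : Finset ι) {ρ : ι → ℝ} (h0 : ∀ i ∈ V, 0 ≤ ρ i) (m : ℕ) :
    ∑ F ∈ powersetCard m V, ∏ i ∈ F, ρ i ≤ (∑ i ∈ V, ρ i) ^ m / m.factorial := by
  induction V using Finset.induction_on generalizing m with
  | empty =>
    cases m with
    | zero => simp
    | succ m =>
      rw [powersetCard_eq_empty.mpr (by simp)]
      simp
  | @insert j V hj ih =>
    have h0' : ∀ i ∈ V, 0 ≤ ρ i := fun i hi => h0 i (mem_insert_of_mem hi)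
    have hs : 0 ≤ ∑ i ∈ V, ρ i := sum_nonneg h0'
    have hj0 : 0 ≤ ρ j := h0 j (mem_insert_self j V)
    cases m with
    | zero => simp
    | succ m =>
      rw [powersetCard_succ_insert hj, sum_union, sum_image]
      · rw [sum_insert hj]
        have h1 : ∀ F ∈ powersetCard m V, ∏ i ∈ insert j F, ρ i = ρ j * ∏ i ∈ F, ρ i := by
          intro F hF
          exact prod_insert fun h => hj ((mem_powersetCard.mp hF).1 h)
        rw [sum_congr rfl h1, ← mul_sum]
        have h2 := ih h0' (m + 1)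
        have h3 := ih h0' m
        have h4 : (∑ i ∈ V, ρ i) ^ (m + 1) + (m + 1) * (ρ j * (∑ i ∈ V, ρ i) ^ m)
            ≤ (ρ j + ∑ i ∈ V, ρ i) ^ (m + 1) := by
          set s := ∑ i ∈ V, ρ i
          have : ∀ n : ℕ, s ^ (n + 1) + (n + 1) * (ρ j * s ^ n) ≤ (ρ j + s) ^ (n + 1) := by
            intro n
            induction n with
            | zero => simp; linarith
            | succ n ihn =>
              have h5 : 0 ≤ (n + 1 : ℝ) * (ρ j * s ^ n) * ρ j := by positivity
              calc s ^ (n + 1 + 1) + ((n + 1 : ℕ) + 1) * (ρ j * s ^ (n + 1))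
                  ≤ (s ^ (n + 1) + (n + 1) * (ρ j * s ^ n)) * (ρ j + s) := by
                    have h6 : (s ^ (n + 1) + (n + 1) * (ρ j * s ^ n)) * (ρ j + s)
                        = s ^ (n + 1 + 1) + ((n + 1 : ℕ) + 1) * (ρ j * s ^ (n + 1))
                          + (n + 1 : ℝ) * (ρ j * s ^ n) * ρ j := by
                      push_cast
                      ring
                    rw [h6]
                    exact le_add_of_nonneg_right h5
                _ ≤ (ρ j + s) ^ (n + 1) * (ρ j + s) :=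
                    mul_le_mul_of_nonneg_right ihn (by positivity)
                _ = (ρ j + s) ^ (n + 1 + 1) := by ring
          exact_mod_cast this m
        have hm : (0 : ℝ) < (m.factorial : ℝ) := by exact_mod_cast m.factorial_pos
        have hm1 : ((m + 1).factorial : ℝ) = (m + 1) * m.factorial := by
          rw [Nat.factorial_succ]; push_cast; ring
        calc (∑ F ∈ powersetCard (m + 1) V, ∏ i ∈ F, ρ i) + ρ j * ∑ F ∈ powersetCard m V, ∏ i ∈ F, ρ i
            ≤ (∑ i ∈ V, ρ i) ^ (m + 1) / (m + 1).factorial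
              + ρ j * ((∑ i ∈ V, ρ i) ^ m / m.factorial) :=
              add_le_add h2 (mul_le_mul_of_nonneg_left h3 hj0)
          _ = ((∑ i ∈ V, ρ i) ^ (m + 1) + (m + 1) * (ρ j * (∑ i ∈ V, ρ i) ^ m))
              / (m + 1).factorial := by
              rw [hm1]
              field_simp
          _ ≤ _ := by gcongr
      · intro F hF G hG hFG
        have hF' : j ∉ F := fun h => hj ((mem_powersetCard.mp (mem_coe.mp hF)).1 h)
        have hG' : j ∉ G := fun h => hj ((mem_powersetCard.mp (mem_coe.mp hG)).1 h)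
        rw [← erase_insert hF', ← erase_insert hG', hFG]
      · rw [disjoint_left]
        intro F hF hF'
        obtain ⟨G, _, rfl⟩ := mem_image.mp hF'
        exact hj ((mem_powersetCard.mp hF).1 (mem_insert_self j G))

end comb

variable {ι : Type*} [Fintype ι] [DecidableEq ι] {V : ι → Type*} [∀ i, Fintype (V i)]
  [∀ i, DecidableEq (V i)] {w u p : ∀ i, V i → ℝ} {μ : (∀ i, V i) → ℝ}

/-- the component in `B` of the measure pinned at `A`, relative to the weights `w` -/
noncomputable def hp (w : ∀ i, V i → ℝ) (μ : (∀ i, V i) → ℝ) (A B : Finset ι)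
    (x : ∀ i, V i) : ℝ :=
  ∑ C ∈ B.powerset, (-1 : ℝ) ^ (B.card - C.card) * gdw w μ (A ∪ C) x

/-- Moebius inversion -/
lemma sum_hp (w : ∀ i, V i → ℝ) (μ : (∀ i, V i) → ℝ) (A B : Finset ι) (x : ∀ i, V i) :
    ∑ E ∈ B.powerset, hp w μ A E x = gdw w μ (A ∪ B) x := by
  unfold hp
  rw [sum_chain B fun E C => (-1 : ℝ) ^ (E.card - C.card) * gdw w μ (A ∪ C) x]
  have h1 : ∀ C ∈ B.powerset, ∑ E ∈ (B \ C).powerset, (-1 : ℝ) ^ ((C ∪ E).card - C.card) *
      gdw w μ (A ∪ C) x = if C = B then gdw w μ (A ∪ C) x else 0 := by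
    intro C hC
    rw [← sum_mul]
    have h2 : ∑ E ∈ (B \ C).powerset, (-1 : ℝ) ^ ((C ∪ E).card - C.card)
        = ∏ i ∈ B \ C, ((-1 : ℝ) + 1) := by
      rw [Finset.prod_add (fun _ : ι => (-1 : ℝ)) (fun _ => 1) (B \ C)]
      refine sum_congr rfl fun E hE => ?_
      have hd : Disjoint C E := disjoint_of_subset_right (mem_powerset.mp hE) disjoint_sdiff
      rw [card_union_of_disjoint hd, prod_const, prod_const]
      simp
    rw [h2]
    by_cases hCB : C = B
    · subst hCB
      simp
    · have h3 : (B \ C).Nonempty := by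
        rw [sdiff_nonempty]
        exact fun h => hCB (subset_antisymm (mem_powerset.mp hC) h)
      rw [if_neg hCB, prod_const, show ((-1 : ℝ) + 1) = 0 by norm_num,
        zero_pow (card_pos.mpr h3).ne', zero_mul]
  rw [sum_congr rfl h1, sum_ite_eq' B.powerset B, if_pos (mem_powerset_self B)]

/-- change of reference for the densities -/
lemma gdw_change (hu : ∀ i a, u i a ≠ 0) (R : Finset ι) (x : ∀ i, V i) :
    gdw p μ R x = (∏ i ∈ R, u i (x i) / p i (x i)) * gdw u μ R x := by
  unfold gdw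
  have h : (∏ i ∈ R, u i (x i)) ≠ 0 := prod_ne_zero_iff.mpr fun i _ => hu i _
  rw [prod_div_distrib]
  field_simp

/-- **change of reference for the components** -/
theorem hp_change (hu : ∀ i a, u i a ≠ 0) {A D : Finset ι} (hAD : Disjoint A D)
    (x : ∀ i, V i) :
    hp p μ A D x = (∏ i ∈ A, u i (x i) / p i (x i)) * ∑ E ∈ D.powerset, hp u μ A E x *
      ((∏ i ∈ E, u i (x i) / p i (x i)) * ∏ i ∈ D \ E, (u i (x i) / p i (x i) - 1)) := by
  obtain ⟨r, hr⟩ : ∃ r : ι → ℝ, r = fun i => u i (x i) / p i (x i) := ⟨_, rfl⟩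
  have hri : ∀ i, u i (x i) / p i (x i) = r i := fun i => by rw [hr]
  have h0 : hp p μ A D x
      = ∑ C ∈ D.powerset, (-1 : ℝ) ^ (D.card - C.card) * gdw p μ (A ∪ C) x := rfl
  simp only [hri]
  have h1 : hp p μ A D x = ∑ C ∈ D.powerset, ∑ E ∈ C.powerset,
      (∏ i ∈ A, r i) * ((-1 : ℝ) ^ (D.card - C.card) * (∏ i ∈ C, r i) * hp u μ A E x) := by
    rw [h0]
    refine sum_congr rfl fun C hC => ?_
    have h2 : Disjoint A C := disjoint_of_subset_right (mem_powerset.mp hC) hAD
    rw [gdw_change hu, prod_union h2, ← sum_hp u μ A C x, ← mul_sum, ← mul_sum]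
    simp only [hri]
    ring
  rw [h1, sum_chain D fun C E => (∏ i ∈ A, r i) * ((-1 : ℝ) ^ (D.card - C.card) *
    (∏ i ∈ C, r i) * hp u μ A E x), mul_sum]
  refine sum_congr rfl fun E hE => ?_
  rw [prod_add_neg_one, mul_sum, mul_sum, mul_sum]
  refine sum_congr rfl fun C hC => ?_
  have h4 : Disjoint E C := disjoint_of_subset_right (mem_powerset.mp hC) disjoint_sdiff
  rw [prod_union h4, card_union_of_disjoint h4, card_sdiff_of_subset (mem_powerset.mp hE),
    Nat.sub_sub]
  ring

/-! ### the norms -/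

/-- `F` depends on the coordinates in `E` only -/
def Lc (E : Finset ι) (F : (∀ i, V i) → ℝ) : Prop := ∀ i, i ∉ E → Inv i F

lemma Inv.mul' {i : ι} {F G : (∀ i, V i) → ℝ} (hF : Inv i F) (hG : Inv i G) :
    Inv i (fun x => F x * G x) := fun x a => by
  show F (update x i a) * G (update x i a) = _
  rw [hF, hG]

lemma inv_prod {i : ι} {E : Finset ι} (hi : i ∉ E) (s : ∀ i, V i → ℝ) :
    Inv i (fun x => ∏ j ∈ E, s j (x j)) := by
  intro x a
  refine prod_congr rfl fun j hj => ?_
  rw [update_of_ne (fun h : j = i => hi (h ▸ hj))]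

/-- one coordinate splits off -/
lemma sum_split (h1 : ∀ i, ∑ a, w i a = 1) {i : ι} {H : (∀ i, V i) → ℝ} (hH : Inv i H)
    (s : V i → ℝ) :
    ∑ x, W w x * (H x * s (x i)) = (∑ x, W w x * H x) * ∑ a, w i a * s a := by
  have h := sum_av (lam := w) i (fun x => s (x i)) H
  rw [av_of_inv h1 hH] at h
  have h2 : ∀ x : ∀ i, V i, av w i (fun x => s (x i)) x = ∑ a, w i a * s a := by
    intro x
    unfold av
    simp
  simp only [h2] at h
  rw [sum_mul]
  calc ∑ x, W w x * (H x * s (x i)) = ∑ x, W w x * (s (x i) * H x) :=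
        sum_congr rfl fun x _ => by ring
    _ = ∑ x, W w x * (H x * ∑ a, w i a * s a) := h.symm
    _ = _ := sum_congr rfl fun x _ => by ring

/-- independent coordinates split off -/
lemma sum_splits (h1 : ∀ i, ∑ a, w i a = 1) {E F : Finset ι} (hEF : Disjoint E F)
    {G : (∀ i, V i) → ℝ} (hG : Lc E G) (s : ∀ i, V i → ℝ) :
    ∑ x, W w x * (G x * ∏ i ∈ F, s i (x i))
      = (∑ x, W w x * G x) * ∏ i ∈ F, ∑ a, w i a * s i a := by
  induction F using Finset.induction_on with
  | empty => simp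
  | @insert j F hj ih =>
    have hjE : j ∉ E := fun h => (disjoint_left.mp hEF h) (mem_insert_self j F)
    have hEF' : Disjoint E F := disjoint_of_subset_right (subset_insert j F) hEF
    have h2 : Inv j (fun x => G x * ∏ i ∈ F, s i (x i)) :=
      Inv.mul' (hG j hjE) (inv_prod hj s)
    have h3 := sum_split h1 h2 (s j)
    rw [prod_insert hj]
    calc ∑ x, W w x * (G x * ∏ i ∈ insert j F, s i (x i))
        = ∑ x, W w x * ((G x * ∏ i ∈ F, s i (x i)) * s j (x j)) :=
          sum_congr rfl fun x _ => by rw [prod_insert hj]; ring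
      _ = _ := by rw [h3, ih hEF']; ring

/-- a factor that does not see the coordinate `j` -/
lemma swap_one {j : ι} {H : (∀ i, V i) → ℝ} (hH : Inv j H) {a b : V j → ℝ} (ha : ∑ c, a c = 1)
    (hb : ∑ c, b c = 1) : ∑ x : ∀ i, V i, a (x j) * H x = ∑ x : ∀ i, V i, b (x j) * H x := by
  have h1 : ∀ a b : V j → ℝ, (∑ c, b c = 1) → ∑ x : ∀ i, V i, a (x j) * H x
      = ∑ q : (∀ i, V i) × V j, a (q.1 j) * b q.2 * H q.1 := by
    intro a b hb
    rw [Fintype.sum_prod_type]
    refine sum_congr rfl fun x _ => ?_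
    have : ∀ c : V j, a (x j) * b c * H x = b c * (a (x j) * H x) := fun c => by ring
    simp only [this]
    rw [← sum_mul, hb, one_mul]
  rw [h1 a b hb, h1 b a ha]
  refine Fintype.sum_equiv (exch j) _ _ fun q => ?_
  show _ = b (update q.1 j q.2 j) * a (q.1 j) * H (update q.1 j q.2)
  rw [update_self, hH]
  ring

/-- weights off `E` do not matter -/
lemma swap_off {E : Finset ι} {G : (∀ i, V i) → ℝ} (hG : Lc E G) {a b : ∀ i, V i → ℝ}
    (hab : ∀ i ∈ E, a i = b i) (ha : ∀ i ∉ E, ∑ c, a i c = 1) (hb : ∀ i ∉ E, ∑ c, b i c = 1) :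
    ∑ x, W a x * G x = ∑ x, W b x * G x := by
  have key : ∀ S : Finset ι, Disjoint S E →
      ∑ x, W (fun i => if i ∈ S then b i else a i) x * G x = ∑ x, W a x * G x := by
    intro S
    induction S using Finset.induction_on with
    | empty => simp
    | @insert j S hj ih =>
      intro hd
      have hjE : j ∉ E := disjoint_left.mp hd (mem_insert_self j S)
      rw [← ih (disjoint_of_subset_left (subset_insert j S) hd)]
      have h2 : ∀ (T : Finset ι) (x : ∀ i, V i), W (fun i => if i ∈ T then b i else a i) x * G x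
          = (if j ∈ T then b j else a j) (x j) *
            ((∏ i ∈ univ.erase j, (if i ∈ T then b i else a i) (x i)) * G x) := by
        intro T x
        unfold W
        rw [← mul_prod_erase univ _ (mem_univ j)]
        ring
      simp only [h2]
      rw [if_pos (mem_insert_self j S), if_neg hj]
      have h3 : ∀ x : ∀ i, V i, (∏ i ∈ univ.erase j, (if i ∈ insert j S then b i else a i) (x i))
          = ∏ i ∈ univ.erase j, (if i ∈ S then b i else a i) (x i) := by
        intro x
        refine prod_congr rfl fun i hi => ?_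
        have hij : i ≠ j := ne_of_mem_erase hi
        simp [hij]
      simp only [h3]
      refine swap_one ?_ (hb j hjE) (ha j hjE)
      exact Inv.mul' (inv_prod (notMem_erase j univ) fun i => if i ∈ S then b i else a i)
        (hG j hjE)
  rw [← key (univ \ E) sdiff_disjoint]
  refine sum_congr rfl fun x _ => ?_
  congr 1
  unfold W
  refine prod_congr rfl fun i _ => ?_
  by_cases hi : i ∈ E
  · simp [hi, hab i hi]
  · simp [hi]

/-- `∑_a p (u/p - 1)^2` -/
noncomputable def rho (u p : ∀ i, V i → ℝ) (i : ι) : ℝ := ∑ a, p i a * (u i a / p i a - 1) ^ 2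

/-- the norm of the component in `E` of the measure pinned at `A`, `x_A = y_A` -/
noncomputable def nP (w : ∀ i, V i → ℝ) (μ : (∀ i, V i) → ℝ) (A : Finset ι) (y : ∀ i, V i)
    (E : Finset ι) : ℝ :=
  ∑ x, W w x * hp w μ A E (A.piecewise y x) ^ 2

lemma rho_nonneg (hp0 : ∀ i a, 0 ≤ p i a) (i : ι) : 0 ≤ rho u p i :=
  sum_nonneg fun a _ => mul_nonneg (hp0 i a) (sq_nonneg _)

lemma nP_nonneg (hw : ∀ i a, 0 ≤ w i a) (A : Finset ι) (y : ∀ i, V i) (E : Finset ι) :
    0 ≤ nP w μ A y E :=
  sum_nonneg fun x _ => mul_nonneg (W_nonneg hw x) (sq_nonneg _)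

lemma marg_congr' (R : Finset ι) {x y : ∀ i, V i} (hxy : ∀ i ∈ R, x i = y i) :
    marg μ R x = marg μ R y := by
  unfold marg
  refine sum_congr rfl fun z _ => ?_
  have : (∀ i ∈ R, z i = x i) ↔ (∀ i ∈ R, z i = y i) := by
    constructor
    · intro h i hi; rw [h i hi, hxy i hi]
    · intro h i hi; rw [h i hi, hxy i hi]
  simp only [this]

lemma gdw_congr (R : Finset ι) {x y : ∀ i, V i} (hxy : ∀ i ∈ R, x i = y i) :
    gdw w μ R x = gdw w μ R y := by
  unfold gdw
  rw [marg_congr' R hxy]
  congr 1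
  exact prod_congr rfl fun i hi => by rw [hxy i hi]

lemma hp_congr {A B : Finset ι} {x y : ∀ i, V i} (hxy : ∀ i ∈ A ∪ B, x i = y i) :
    hp w μ A B x = hp w μ A B y := by
  unfold hp
  refine sum_congr rfl fun C hC => ?_
  rw [gdw_congr (A ∪ C) fun i hi => hxy i (union_subset_union_right (mem_powerset.mp hC) hi)]

lemma lc_hp (A E : Finset ι) (y : ∀ i, V i) :
    Lc E (fun x => hp w μ A E (A.piecewise y x) ^ 2) := by
  intro i hi x a
  show hp w μ A E (A.piecewise y (update x i a)) ^ 2 = _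
  congr 1
  refine hp_congr fun j hj => ?_
  by_cases hjA : j ∈ A
  · rw [piecewise_eq_of_mem _ _ _ hjA, piecewise_eq_of_mem _ _ _ hjA]
  · rw [piecewise_eq_of_notMem _ _ _ hjA, piecewise_eq_of_notMem _ _ _ hjA]
    have hjE : j ∈ E := (mem_union.mp hj).resolve_left hjA
    rw [update_of_ne (fun h : j = i => hi (h ▸ hjE))]

/-- the weights `p r^2` are at most `u / ξ` -/
lemma wt_le {ξ : ℝ} (hξ : 0 < ξ) {u p : ℝ} (hu : 0 < u) (h : p = 0 ∨ ξ * u ≤ p) :
    p * (u / p) ^ 2 ≤ ξ⁻¹ * u := by
  rcases h with rfl | h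
  · simp
    positivity
  · have hp : 0 < p := lt_of_lt_of_le (mul_pos hξ hu) h
    have h1 : p * (u / p) ^ 2 = u * (u / p) := by
      field_simp
    rw [h1, mul_comm ξ⁻¹ u]
    refine mul_le_mul_of_nonneg_left ?_ hu.le
    rw [div_le_iff₀ hp]
    calc u = ξ⁻¹ * (ξ * u) := by field_simp
      _ ≤ ξ⁻¹ * p := mul_le_mul_of_nonneg_left h (by positivity)

/-- **one set of legs** -/
theorem own_term (hu : ∀ i a, 0 < u i a) (hu1 : ∀ i, ∑ a, u i a = 1) (hp0 : ∀ i a, 0 ≤ p i a)
    (hp1 : ∀ i, ∑ a, p i a = 1) {ξ : ι → ℝ} {A D : Finset ι} (hξ : ∀ i ∈ D, 0 < ξ i)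
    (hat : ∀ i ∈ D, ∀ a, p i a = 0 ∨ ξ i * u i a ≤ p i a) (hAD : Disjoint A D) (y : ∀ i, V i) :
    nP p μ A y D ≤ (∏ i ∈ A, u i (y i) / p i (y i)) ^ 2 * (2 ^ D.card * ∑ E ∈ D.powerset,
      (∏ i ∈ E, (ξ i)⁻¹) * nP u μ A y E * ∏ i ∈ D \ E, rho u p i) := by
  have hune : ∀ i a, u i a ≠ 0 := fun i a => (hu i a).ne'
  -- pointwise
  have h1 : ∀ x : ∀ i, V i, hp p μ A D (A.piecewise y x) ^ 2 ≤
      (∏ i ∈ A, u i (y i) / p i (y i)) ^ 2 * (2 ^ D.card * ∑ E ∈ D.powerset,
        (hp u μ A E (A.piecewise y x) ^ 2 * ∏ i ∈ E, (u i (x i) / p i (x i)) ^ 2) *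
          ∏ i ∈ D \ E, (u i (x i) / p i (x i) - 1) ^ 2) := by
    intro x
    rw [hp_change hune hAD, mul_pow]
    have hA : ∏ i ∈ A, u i (A.piecewise y x i) / p i (A.piecewise y x i)
        = ∏ i ∈ A, u i (y i) / p i (y i) :=
      prod_congr rfl fun i hi => by rw [piecewise_eq_of_mem _ _ _ hi]
    have hD : ∀ i ∈ D, A.piecewise y x i = x i := fun i hi =>
      piecewise_eq_of_notMem _ _ _ (disjoint_right.mp hAD hi)
    rw [hA]
    refine mul_le_mul_of_nonneg_left ?_ (sq_nonneg _)
    refine (sq_sum_le_card_mul_sum_sq (s := D.powerset)).trans (le_of_eq ?_)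
    rw [card_powerset]
    push_cast
    congr 1
    refine sum_congr rfl fun E hE => ?_
    have hE' := mem_powerset.mp hE
    have h2 : ∏ i ∈ E, u i (A.piecewise y x i) / p i (A.piecewise y x i)
        = ∏ i ∈ E, u i (x i) / p i (x i) :=
      prod_congr rfl fun i hi => by rw [hD i (hE' hi)]
    have h3 : ∏ i ∈ D \ E, (u i (A.piecewise y x i) / p i (A.piecewise y x i) - 1)
        = ∏ i ∈ D \ E, (u i (x i) / p i (x i) - 1) :=
      prod_congr rfl fun i hi => by rw [hD i (mem_sdiff.mp hi).1]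
    rw [h2, h3, mul_pow, mul_pow, prod_pow, prod_pow]
    ring
  calc nP p μ A y D ≤ ∑ x, W p x * ((∏ i ∈ A, u i (y i) / p i (y i)) ^ 2 * (2 ^ D.card *
        ∑ E ∈ D.powerset, (hp u μ A E (A.piecewise y x) ^ 2 *
          ∏ i ∈ E, (u i (x i) / p i (x i)) ^ 2) * ∏ i ∈ D \ E, (u i (x i) / p i (x i) - 1) ^ 2)) :=
        sum_le_sum fun x _ => mul_le_mul_of_nonneg_left (h1 x) (W_nonneg hp0 x)
    _ = (∏ i ∈ A, u i (y i) / p i (y i)) ^ 2 * (2 ^ D.card * ∑ E ∈ D.powerset,
        ∑ x, W p x * ((hp u μ A E (A.piecewise y x) ^ 2 *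
          ∏ i ∈ E, (u i (x i) / p i (x i)) ^ 2) *
            ∏ i ∈ D \ E, (u i (x i) / p i (x i) - 1) ^ 2)) := by
        rw [sum_comm, mul_sum, mul_sum]
        refine sum_congr rfl fun x _ => ?_
        rw [← mul_sum]
        ring
    _ ≤ _ := by
        refine mul_le_mul_of_nonneg_left (mul_le_mul_of_nonneg_left (sum_le_sum fun E hE => ?_)
          (by positivity)) (sq_nonneg _)
        have hE' := mem_powerset.mp hE
        have hG : Lc E (fun x => hp u μ A E (A.piecewise y x) ^ 2 *
            ∏ i ∈ E, (u i (x i) / p i (x i)) ^ 2) := fun i hi =>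
          Inv.mul' (lc_hp A E y i hi) (inv_prod hi fun j a => (u j a / p j a) ^ 2)
        rw [sum_splits hp1 disjoint_sdiff hG fun i a => (u i a / p i a - 1) ^ 2]
        refine mul_le_mul_of_nonneg_right ?_ (prod_nonneg fun i _ => rho_nonneg hp0 i)
        -- change of the weights
        set G : (∀ i, V i) → ℝ := fun x => hp u μ A E (A.piecewise y x) ^ 2 with hGdef
        have hLG : Lc E G := lc_hp A E y
        set a' : ∀ i, V i → ℝ := fun i c => if i ∈ E then p i c * (u i c / p i c) ^ 2 else p i c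
          with ha'
        set b' : ∀ i, V i → ℝ := fun i c => if i ∈ E then p i c * (u i c / p i c) ^ 2 else u i c
          with hb'
        have e1 : ∑ x, W p x * (hp u μ A E (A.piecewise y x) ^ 2 *
            ∏ i ∈ E, (u i (x i) / p i (x i)) ^ 2) = ∑ x, W a' x * G x := by
          refine sum_congr rfl fun x _ => ?_
          have : W a' x = W p x * ∏ i ∈ E, (u i (x i) / p i (x i)) ^ 2 := by
            have h5 : ∏ i ∈ E, (u i (x i) / p i (x i)) ^ 2
                = ∏ i, if i ∈ E then (u i (x i) / p i (x i)) ^ 2 else 1 := by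
              rw [prod_ite_mem, univ_inter]
            rw [h5]
            unfold W
            rw [← prod_mul_distrib]
            refine prod_congr rfl fun i _ => ?_
            by_cases hi : i ∈ E
            · simp [ha', hi]
            · simp [ha', hi]
          rw [this]
          ring
        have e2 : ∑ x, W a' x * G x = ∑ x, W b' x * G x := by
          refine swap_off hLG (fun i hi => ?_) (fun i hi => ?_) fun i hi => ?_
          · funext c
            simp [ha', hb', hi]
          · simp only [ha', if_neg hi, hp1]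
          · simp only [hb', if_neg hi, hu1]
        rw [e1, e2]
        unfold nP
        rw [mul_sum]
        refine sum_le_sum fun x _ => ?_
        have h6 : W b' x ≤ (∏ i ∈ E, (ξ i)⁻¹) * W u x := by
          have h5 : (∏ i ∈ E, (ξ i)⁻¹) = ∏ i, if i ∈ E then (ξ i)⁻¹ else 1 := by
            rw [prod_ite_mem, univ_inter]
          rw [h5]
          unfold W
          rw [← prod_mul_distrib]
          refine prod_le_prod (fun i _ => ?_) fun i _ => ?_
          · by_cases hi : i ∈ E
            · simp only [hb', if_pos hi]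
              exact mul_nonneg (hp0 i _) (sq_nonneg _)
            · simp only [hb', if_neg hi]
              exact (hu i _).le
          · by_cases hi : i ∈ E
            · simp only [hb', if_pos hi]
              exact wt_le (hξ i (hE' hi)) (hu i _) (hat i (hE' hi) _)
            · simp only [hb', if_neg hi, one_mul, le_refl]
        calc W b' x * G x ≤ ((∏ i ∈ E, (ξ i)⁻¹) * W u x) * G x :=
              mul_le_mul_of_nonneg_right h6 (sq_nonneg _)
          _ = _ := by rw [hGdef]; ring

/-- **(C) the level `d` of the pinned measure relative to `p`**: `Ue e` bounds the level `e`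
relative to `u`, `K1` bounds the level one of `p`. -/
theorem own_sum (hu : ∀ i a, 0 < u i a) (hu1 : ∀ i, ∑ a, u i a = 1) (hp0 : ∀ i a, 0 ≤ p i a)
    (hp1 : ∀ i, ∑ a, p i a = 1) {ξ : ℝ} (hξ : 0 < ξ) {A VV : Finset ι} (hAV : Disjoint A VV)
    (hat : ∀ i ∈ VV, ∀ a, p i a = 0 ∨ ξ * u i a ≤ p i a) (y : ∀ i, V i) {d : ℕ} {Ue : ℕ → ℝ}
    {K1 : ℝ} (hU : ∀ e ≤ d, ∑ E ∈ powersetCard e VV, nP u μ A y E ≤ Ue e)
    (hK1 : ∑ i ∈ VV, rho u p i ≤ K1) :
    ∑ D ∈ powersetCard d VV, nP p μ A y D ≤ (∏ i ∈ A, u i (y i) / p i (y i)) ^ 2 *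
      (2 ^ d * ∑ e ∈ range (d + 1), (ξ⁻¹ ^ e * Ue e) * (K1 ^ (d - e) / (d - e).factorial)) := by
  have hu0 : ∀ i a, 0 ≤ u i a := fun i a => (hu i a).le
  have hr0 : ∀ i ∈ VV, 0 ≤ rho u p i := fun i _ => rho_nonneg hp0 i
  calc ∑ D ∈ powersetCard d VV, nP p μ A y D
      ≤ ∑ D ∈ powersetCard d VV, (∏ i ∈ A, u i (y i) / p i (y i)) ^ 2 * (2 ^ d *
          ∑ E ∈ D.powerset, (ξ⁻¹ ^ E.card * nP u μ A y E) * ∏ i ∈ D \ E, rho u p i) := by
        refine sum_le_sum fun D hD => ?_
        obtain ⟨hDV, hDc⟩ := mem_powersetCard.mp hD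
        have h := own_term (μ := μ) hu hu1 hp0 hp1 (ξ := fun _ => ξ) (A := A) (D := D)
          (fun i _ => hξ) (fun i hi => hat i (hDV hi)) (disjoint_of_subset_right hDV hAV) y
        rw [hDc] at h
        simpa only [prod_const] using h
    _ = (∏ i ∈ A, u i (y i) / p i (y i)) ^ 2 * (2 ^ d * ∑ D ∈ powersetCard d VV,
          ∑ E ∈ D.powerset, (ξ⁻¹ ^ E.card * nP u μ A y E) * ∏ i ∈ D \ E, rho u p i) := by
        rw [← mul_sum, ← mul_sum]
    _ ≤ _ := by
        refine mul_le_mul_of_nonneg_left (mul_le_mul_of_nonneg_left ?_ (by positivity))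
          (sq_nonneg _)
        calc ∑ D ∈ powersetCard d VV, ∑ E ∈ D.powerset,
              (ξ⁻¹ ^ E.card * nP u μ A y E) * ∏ i ∈ D \ E, rho u p i
            ≤ ∑ e ∈ range (d + 1), ∑ E ∈ powersetCard e VV, ∑ F ∈ powersetCard (d - e) VV,
                (ξ⁻¹ ^ E.card * nP u μ A y E) * ∏ i ∈ F, rho u p i := by
              have e1 : ∀ D ∈ powersetCard d VV, ∑ E ∈ D.powerset,
                  (ξ⁻¹ ^ E.card * nP u μ A y E) * ∏ i ∈ D \ E, rho u p i
                  = ∑ e ∈ range (d + 1), ∑ E ∈ powersetCard e D,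
                    (ξ⁻¹ ^ E.card * nP u μ A y E) * ∏ i ∈ D \ E, rho u p i := by
                intro D hD
                rw [Finset.sum_powerset, (mem_powersetCard.mp hD).2]
              rw [sum_congr rfl e1, sum_comm]
              refine sum_le_sum fun e he => ?_
              have hed : e ≤ d := by simpa [Nat.lt_succ_iff] using he
              rw [sum_sigma', sum_sigma']
              refine (le_of_eq (sum_nbij' (s := (powersetCard d VV).sigma
                fun D => powersetCard e D) (t := ((powersetCard e VV).sigma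
                fun _ => powersetCard (d - e) VV).filter fun q => Disjoint q.1 q.2)
                (fun q => ⟨q.2, q.1 \ q.2⟩) (fun q => ⟨q.1 ∪ q.2, q.1⟩) ?_ ?_ ?_ ?_ ?_)).trans
                (sum_le_sum_of_subset_of_nonneg (filter_subset _ _) fun q hq _ => ?_)
              · rintro ⟨D, E⟩ hq
                simp only [mem_sigma, mem_powersetCard, mem_filter] at hq ⊢
                obtain ⟨⟨h1, h2⟩, h3, h4⟩ := hq
                refine ⟨⟨⟨h3.trans h1, h4⟩, sdiff_subset.trans h1, ?_⟩, disjoint_sdiff⟩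
                rw [card_sdiff_of_subset h3, h2, h4]
              · rintro ⟨E, F⟩ hq
                simp only [mem_sigma, mem_powersetCard, mem_filter] at hq ⊢
                obtain ⟨⟨⟨h1, h2⟩, h3, h4⟩, h5⟩ := hq
                refine ⟨⟨union_subset h1 h3, ?_⟩, subset_union_left, h2⟩
                rw [card_union_of_disjoint h5, h2, h4]
                omega
              · rintro ⟨D, E⟩ hq
                simp only [mem_sigma, mem_powersetCard] at hq
                simp only [Sigma.mk.injEq, heq_eq_eq, and_true]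
                exact union_sdiff_of_subset hq.2.1
              · rintro ⟨E, F⟩ hq
                simp only [mem_sigma, mem_powersetCard, mem_filter] at hq
                simp only [Sigma.mk.injEq, heq_eq_eq, true_and]
                exact union_sdiff_cancel_left hq.2
              · rintro ⟨D, E⟩ hq
                rfl
              · obtain ⟨E, F⟩ := q
                simp only [mem_sigma, mem_powersetCard] at hq
                exact mul_nonneg (mul_nonneg (by positivity) (nP_nonneg hu0 A y E))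
                  (prod_nonneg fun i hi => hr0 i (hq.2.1 hi))
          _ ≤ _ := by
              refine sum_le_sum fun e he => ?_
              have hed : e ≤ d := by simpa [Nat.lt_succ_iff] using he
              have e3 : ∑ E ∈ powersetCard e VV, ∑ F ∈ powersetCard (d - e) VV,
                  (ξ⁻¹ ^ E.card * nP u μ A y E) * ∏ i ∈ F, rho u p i
                  = (ξ⁻¹ ^ e * ∑ E ∈ powersetCard e VV, nP u μ A y E) *
                    ∑ F ∈ powersetCard (d - e) VV, ∏ i ∈ F, rho u p i := by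
                have e4 : ξ⁻¹ ^ e * ∑ E ∈ powersetCard e VV, nP u μ A y E
                    = ∑ E ∈ powersetCard e VV, ξ⁻¹ ^ e * nP u μ A y E := mul_sum _ _ _
                rw [e4, sum_mul]
                refine sum_congr rfl fun E hE => ?_
                rw [(mem_powersetCard.mp hE).2, mul_sum]
              rw [e3]
              have h7 : 0 ≤ ∑ E ∈ powersetCard e VV, nP u μ A y E :=
                sum_nonneg fun E _ => nP_nonneg hu0 A y E
              refine mul_le_mul (mul_le_mul_of_nonneg_left (hU e hed) (by positivity)) ?_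
                (sum_nonneg fun F hF => prod_nonneg fun i hi =>
                  hr0 i ((mem_powersetCard.mp hF).1 hi))
                (mul_nonneg (by positivity) (h7.trans (hU e hed)))
              refine (esymm_le VV hr0 (d - e)).trans ?_
              have h8 : (∑ i ∈ VV, rho u p i) ^ (d - e) ≤ K1 ^ (d - e) :=
                pow_le_pow_left₀ (sum_nonneg hr0) hK1 _
              gcongr

/-- the closed form: levels `≤ c K^e / e!` relative to `u` give the level
`≤ c (∏ u/p)^2 (2 (K/ξ + K1))^d / d!` relative to `p` -/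
theorem own_level (hu : ∀ i a, 0 < u i a) (hu1 : ∀ i, ∑ a, u i a = 1) (hp0 : ∀ i a, 0 ≤ p i a)
    (hp1 : ∀ i, ∑ a, p i a = 1) {ξ : ℝ} (hξ : 0 < ξ) {A VV : Finset ι} (hAV : Disjoint A VV)
    (hat : ∀ i ∈ VV, ∀ a, p i a = 0 ∨ ξ * u i a ≤ p i a) (y : ∀ i, V i) {d : ℕ}
    {c K K1 : ℝ} (hU : ∀ e ≤ d, ∑ E ∈ powersetCard e VV, nP u μ A y E ≤ c * K ^ e / e.factorial)
    (hK1 : ∑ i ∈ VV, rho u p i ≤ K1) :
    ∑ D ∈ powersetCard d VV, nP p μ A y D ≤ (∏ i ∈ A, u i (y i) / p i (y i)) ^ 2 *
      (c * (2 * (ξ⁻¹ * K + K1)) ^ d / d.factorial) := by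
  refine (own_sum hu hu1 hp0 hp1 hξ hAV hat y hU hK1).trans (le_of_eq ?_)
  congr 1
  rw [mul_pow, add_pow, mul_sum, mul_sum, mul_sum, sum_div]
  refine sum_congr rfl fun e he => ?_
  have hed : e ≤ d := by simpa [Nat.lt_succ_iff] using he
  rw [Nat.choose_eq_factorial_div_factorial hed,
    Nat.cast_div (Nat.factorial_mul_factorial_dvd_factorial hed) (by positivity)]
  push_cast
  have h1 : (d.factorial : ℝ) ≠ 0 := by positivity
  have h2 : (e.factorial : ℝ) ≠ 0 := by positivity
  have h3 : ((d - e).factorial : ℝ) ≠ 0 := by positivity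
  rw [mul_pow]
  field_simp

/-- level one: `∑_a p (u/p - 1)^2 ≤ ξ⁻¹ ∑_a u (p/u - 1)^2` -/
lemma rho_le (hu : ∀ i a, 0 < u i a) {ξ : ℝ} (hξ : 0 < ξ) (i : ι) (hat : ∀ a, p i a = 0 ∨ ξ * u i a ≤ p i a) :
    rho u p i ≤ ξ⁻¹ * ∑ a, u i a * (p i a / u i a - 1) ^ 2 := by
  unfold rho
  rw [mul_sum]
  refine sum_le_sum fun a _ => ?_
  have hua := hu i a
  have hξi : 0 < ξ⁻¹ := by positivity
  rcases hat a with h | h
  · rw [h]
    simp
    positivity
  · have hp : 0 < p i a := lt_of_lt_of_le (mul_pos hξ hua) h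
    have h1 : p i a * (u i a / p i a - 1) ^ 2 = (u i a - p i a) ^ 2 / p i a := by
      field_simp
    have h2 : u i a * (p i a / u i a - 1) ^ 2 = (u i a - p i a) ^ 2 / u i a := by
      field_simp
      ring
    rw [h1, h2]
    rw [← div_eq_inv_mul, div_div]
    gcongr
    linarith

end Vale.Agent.P042.H565
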