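import Mathlib

/-!
# P042, block [C]: the finishing lemma (real-variable form)

`F` is a finitely supported real sequence with `F 0 = 1` (coefficients of
`Z(s) = ∑ F_b s^b`), `W` satisfies the Newton recursion `b F_b = ∑ m W_m F_{b-m}` for
`1 ≤ b ≤ b0`.  If `|F_b| ≤ e^Q r^{-b}` for all `b` and `∑_{m ≤ b0} |W_m| r^m ≤ A`, then
`∑ F_b ≥ (1 - (1+A) e^{Q+A} r^{-b0}) exp (∑_{m ≤ b0} W_m)`.
-/

open Finset

namespace Vale.Agent.P042.H565

noncomputable section

/-- The polynomial with coefficients `F 0, …, F K`. -/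
def polF (F : ℕ → ℝ) (K : ℕ) : Polynomial ℝ :=
  ∑ b ∈ range (K + 1), Polynomial.monomial b (F b)

/-- The polynomial `∑_{1 ≤ m ≤ b0} W m X^m`. -/
def polW (W : ℕ → ℝ) (b0 : ℕ) : Polynomial ℝ :=
  ∑ m ∈ Icc 1 b0, Polynomial.monomial m (W m)

lemma coeff_polF (F : ℕ → ℝ) (K : ℕ) (hK : ∀ b, K < b → F b = 0) (n : ℕ) :
    (polF F K).coeff n = F n := by
  classical
  unfold polF
  rw [Polynomial.finsetSum_coeff]
  simp only [Polynomial.coeff_monomial]
  by_cases h : n ∈ range (K + 1)
  · rw [Finset.sum_eq_single n]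
    · simp
    · intro b _ hb; simp [hb]
    · intro hn; exact absurd h hn
  · have : K < n := by
      rw [mem_range] at h; omega
    rw [hK n this]
    apply Finset.sum_eq_zero
    intro b hb
    have : b ≠ n := by rintro rfl; exact h hb
    simp [this]

lemma coeff_polW (W : ℕ → ℝ) (b0 : ℕ) (n : ℕ) :
    (polW W b0).coeff n = if n ∈ Icc 1 b0 then W n else 0 := by
  classical
  unfold polW
  rw [Polynomial.finsetSum_coeff]
  simp only [Polynomial.coeff_monomial]
  by_cases h : n ∈ Icc 1 b0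
  · rw [Finset.sum_eq_single n]
    · simp [h]
    · intro b _ hb; simp [hb]
    · intro hn; exact absurd h hn
  · rw [if_neg h]
    apply Finset.sum_eq_zero
    intro b hb
    have : b ≠ n := by rintro rfl; exact h hb
    simp [this]

lemma eval_polF (F : ℕ → ℝ) (K : ℕ) (s : ℝ) :
    (polF F K).eval s = ∑ b ∈ range (K + 1), F b * s ^ b := by
  unfold polF
  rw [Polynomial.eval_finsetSum]
  simp [Polynomial.eval_monomial]

lemma eval_polW (W : ℕ → ℝ) (b0 : ℕ) (s : ℝ) :
    (polW W b0).eval s = ∑ m ∈ Icc 1 b0, W m * s ^ m := by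
  unfold polW
  rw [Polynomial.eval_finsetSum]
  simp [Polynomial.eval_monomial]

/-- `F' - W' F`. -/
def polD (F W : ℕ → ℝ) (K b0 : ℕ) : Polynomial ℝ :=
  Polynomial.derivative (polF F K) - Polynomial.derivative (polW W b0) * polF F K

lemma coeff_polD (F W : ℕ → ℝ) (K b0 : ℕ) (hK : ∀ b, K < b → F b = 0) (n : ℕ) :
    (polD F W K b0).coeff n =
      ((n : ℝ) + 1) * F (n + 1) -
        ∑ m ∈ (Icc 1 (n + 1)).filter (fun m => m ≤ b0), (m : ℝ) * W m * F (n + 1 - m) := by
  classical
  unfold polD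
  rw [Polynomial.coeff_sub, Polynomial.coeff_derivative, coeff_polF F K hK,
    Polynomial.coeff_mul]
  congr 1
  · ring
  · rw [Finset.Nat.sum_antidiagonal_eq_sum_range_succ_mk]
    simp only [Polynomial.coeff_derivative, coeff_polW, coeff_polF F K hK]
    rw [Finset.sum_filter]
    have : Icc 1 (n + 1) = (range (n + 1)).image (fun i => i + 1) := by
      ext m
      simp only [mem_Icc, mem_image, mem_range]
      constructor
      · rintro ⟨h1, h2⟩
        exact ⟨m - 1, by omega, by omega⟩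
      · rintro ⟨a, ha, rfl⟩
        omega
    rw [this, Finset.sum_image (by intro a _ b _ h; simpa using h)]
    apply Finset.sum_congr rfl
    intro i hi
    rw [mem_range] at hi
    by_cases h : i + 1 ≤ b0
    · have h' : i + 1 ∈ Icc 1 b0 := by rw [mem_Icc]; omega
      rw [if_pos h', if_pos h]
      have : n + 1 - (i + 1) = n - i := by omega
      rw [this]
      push_cast
      ring
    · have h' : i + 1 ∉ Icc 1 b0 := by rw [mem_Icc]; omega
      rw [if_neg h', if_neg h]
      ring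

/-- The hypotheses of the finishing lemma. -/
structure FinHyp (F W : ℕ → ℝ) (K b0 : ℕ) (A Q r : ℝ) : Prop where
  F0 : F 0 = 1
  FK : ∀ b, K < b → F b = 0
  newt : ∀ b, 1 ≤ b → b ≤ b0 → (b : ℝ) * F b = ∑ m ∈ Icc 1 b, (m : ℝ) * W m * F (b - m)
  bd : ∀ b, |F b| ≤ Real.exp Q / r ^ b
  two_le : 2 ≤ r
  WA : ∑ m ∈ Icc 1 b0, |W m| * r ^ m ≤ A

namespace FinHyp

variable {F W : ℕ → ℝ} {K b0 : ℕ} {A Q r : ℝ}

lemma A_nonneg (h : FinHyp F W K b0 A Q r) : 0 ≤ A := by
  have h2 := h.two_le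
  refine le_trans (Finset.sum_nonneg ?_) h.WA
  intro m _
  positivity

lemma coeff_low (h : FinHyp F W K b0 A Q r) (n : ℕ) (hn : n < b0) :
    (polD F W K b0).coeff n = 0 := by
  rw [coeff_polD F W K b0 h.FK]
  have := h.newt (n + 1) (by omega) (by omega)
  push_cast at this
  rw [this]
  have hf : (Icc 1 (n + 1)).filter (fun m => m ≤ b0) = Icc 1 (n + 1) := by
    apply Finset.filter_true_of_mem
    intro m hm
    rw [mem_Icc] at hm
    omega
  rw [hf]
  ring

lemma coeff_high (h : FinHyp F W K b0 A Q r) (n : ℕ) :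
    |(polD F W K b0).coeff n| ≤ ((n : ℝ) + 1) * ((1 + A) * Real.exp Q / r ^ (n + 1)) := by
  classical
  rw [coeff_polD F W K b0 h.FK]
  have hr : 0 < r := lt_of_lt_of_le (by norm_num) h.two_le
  have hn : (0 : ℝ) ≤ n := Nat.cast_nonneg n
  have h1 : |((n : ℝ) + 1) * F (n + 1)| ≤ ((n : ℝ) + 1) * (Real.exp Q / r ^ (n + 1)) := by
    rw [abs_mul, abs_of_nonneg (by linarith : (0 : ℝ) ≤ (n : ℝ) + 1)]
    exact mul_le_mul_of_nonneg_left (h.bd _) (by linarith)
  have h2 : |∑ m ∈ (Icc 1 (n + 1)).filter (fun m => m ≤ b0),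
      (m : ℝ) * W m * F (n + 1 - m)| ≤ ((n : ℝ) + 1) * (A * Real.exp Q / r ^ (n + 1)) := by
    refine le_trans (Finset.abs_sum_le_sum_abs _ _) ?_
    have h3 : ∀ m ∈ (Icc 1 (n + 1)).filter (fun m => m ≤ b0),
        |(m : ℝ) * W m * F (n + 1 - m)| ≤
          ((n : ℝ) + 1) * (Real.exp Q / r ^ (n + 1)) * (|W m| * r ^ m) := by
      intro m hm
      rw [mem_filter, mem_Icc] at hm
      obtain ⟨⟨hm1, hm2⟩, hm3⟩ := hm
      rw [abs_mul, abs_mul, abs_of_nonneg (Nat.cast_nonneg m : (0 : ℝ) ≤ (m : ℝ))]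
      have hmn : (m : ℝ) ≤ (n : ℝ) + 1 := by exact_mod_cast hm2
      have hb := h.bd (n + 1 - m)
      have hrr : r ^ (n + 1) = r ^ (n + 1 - m) * r ^ m := by
        rw [← pow_add]; congr 1; omega
      have e1 : Real.exp Q / r ^ (n + 1) * r ^ m = Real.exp Q / r ^ (n + 1 - m) := by
        rw [hrr]
        field_simp
      calc (m : ℝ) * |W m| * |F (n + 1 - m)|
          ≤ ((n : ℝ) + 1) * |W m| * (Real.exp Q / r ^ (n + 1 - m)) := by
            apply mul_le_mul _ hb (abs_nonneg _) (by positivity)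
            exact mul_le_mul_of_nonneg_right hmn (abs_nonneg _)
        _ = ((n : ℝ) + 1) * (Real.exp Q / r ^ (n + 1)) * (|W m| * r ^ m) := by
            rw [← e1]; ring
    refine le_trans (Finset.sum_le_sum h3) ?_
    rw [← Finset.mul_sum]
    have h4 : ∑ m ∈ (Icc 1 (n + 1)).filter (fun m => m ≤ b0), |W m| * r ^ m ≤ A := by
      refine le_trans ?_ h.WA
      apply Finset.sum_le_sum_of_subset_of_nonneg
      · intro m hm
        rw [mem_filter, mem_Icc] at hm
        rw [mem_Icc]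
        omega
      · intro m _ _
        positivity
    calc ((n : ℝ) + 1) * (Real.exp Q / r ^ (n + 1)) *
          ∑ m ∈ (Icc 1 (n + 1)).filter (fun m => m ≤ b0), |W m| * r ^ m
        ≤ ((n : ℝ) + 1) * (Real.exp Q / r ^ (n + 1)) * A :=
          mul_le_mul_of_nonneg_left h4 (by positivity)
      _ = ((n : ℝ) + 1) * (A * Real.exp Q / r ^ (n + 1)) := by ring
  calc _ ≤ |((n : ℝ) + 1) * F (n + 1)| + |∑ m ∈ (Icc 1 (n + 1)).filter (fun m => m ≤ b0),
      (m : ℝ) * W m * F (n + 1 - m)| := abs_sub _ _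
    _ ≤ _ := add_le_add h1 h2
    _ = _ := by ring

/-- the comparison polynomial `∑_{n ≥ b0} r^{-(n+1)} s^{n+1}`, up to constants. -/
def cmp (b0 N : ℕ) (r s : ℝ) : ℝ := ∑ n ∈ Ico b0 N, s ^ (n + 1) / r ^ (n + 1)

lemma cmp_one_le (h2 : 2 ≤ r) (b0 N : ℕ) : cmp b0 N r 1 ≤ 1 / r ^ b0 := by
  have hr : 0 < r := by linarith
  unfold cmp
  simp only [one_pow]
  by_cases hN : b0 ≤ N
  · obtain ⟨k, rfl⟩ := Nat.exists_eq_add_of_le hN
    clear hN
    have key : ∑ n ∈ Ico b0 (b0 + k), (1 : ℝ) / r ^ (n + 1) ≤ 1 / r ^ b0 - 1 / r ^ (b0 + k) := by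
      induction k with
      | zero => simp
      | succ k ih =>
        rw [← add_assoc, Finset.sum_Ico_succ_top (by omega)]
        have hp : 0 < r ^ (b0 + k) := by positivity
        have : (1 : ℝ) / r ^ (b0 + k + 1) + 1 / r ^ (b0 + k + 1) ≤ 1 / r ^ (b0 + k) := by
          rw [← add_div, div_le_div_iff₀ (by positivity) hp, pow_succ]
          nlinarith
        linarith
    have : 0 ≤ 1 / r ^ (b0 + k) := by positivity
    linarith
  · rw [Finset.Ico_eq_empty (by omega)]
    simp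
    positivity

/-- The main inequality. -/
theorem main (h : FinHyp F W K b0 A Q r) :
    (1 - (1 + A) * Real.exp (Q + A) / r ^ b0) * Real.exp (∑ m ∈ Icc 1 b0, W m) ≤
      ∑ b ∈ range (K + 1), F b := by
  classical
  have h2 := h.two_le
  have hr : 0 < r := by linarith
  have hA := h.A_nonneg
  set P := polF F K with hP
  set w := polW W b0 with hw
  set D := polD F W K b0 with hD
  set N := D.natDegree + 1 with hN
  -- the function q
  let q : ℝ → ℝ := fun s => P.eval s * Real.exp (-(w.eval s))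
  let C : ℝ := (1 + A) * Real.exp Q * Real.exp A
  let g : ℝ → ℝ := fun s => q s + C * cmp b0 N r s
  have hq : ∀ s, HasDerivAt q (D.eval s * Real.exp (-(w.eval s))) s := by
    intro s
    have h1 : HasDerivAt (fun s => P.eval s) ((Polynomial.derivative P).eval s) s :=
      P.hasDerivAt s
    have h3 : HasDerivAt (fun s => Real.exp (-(w.eval s)))
        (Real.exp (-(w.eval s)) * (-((Polynomial.derivative w).eval s))) s :=
      ((w.hasDerivAt s).neg).exp
    have h4 := h1.mul h3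
    refine h4.congr_deriv ?_
    rw [hD, polD, Polynomial.eval_sub, Polynomial.eval_mul]
    ring
  have hcmp : ∀ s, HasDerivAt (fun s => cmp b0 N r s)
      (∑ n ∈ Ico b0 N, ((n : ℝ) + 1) * s ^ n / r ^ (n + 1)) s := by
    intro s
    unfold cmp
    have : HasDerivAt (fun s : ℝ => ∑ n ∈ Ico b0 N, s ^ (n + 1) / r ^ (n + 1))
        (∑ n ∈ Ico b0 N, ((n + 1 : ℕ) : ℝ) * s ^ n / r ^ (n + 1)) s := by
      apply HasDerivAt.fun_sum
      intro n _
      have := (hasDerivAt_pow (n + 1) s).div_const (r ^ (n + 1))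
      simpa using this
    refine this.congr_deriv ?_
    apply Finset.sum_congr rfl
    intro n _
    push_cast
    ring
  have hg : ∀ s, HasDerivAt g (D.eval s * Real.exp (-(w.eval s)) +
      C * ∑ n ∈ Ico b0 N, ((n : ℝ) + 1) * s ^ n / r ^ (n + 1)) s := by
    intro s
    exact (hq s).add ((hcmp s).const_mul C)
  -- bound of w on [0,1]
  have hwb : ∀ s ∈ Set.Icc (0 : ℝ) 1, -(w.eval s) ≤ A := by
    intro s hs
    rw [hw, eval_polW]
    rw [← Finset.sum_neg_distrib]
    refine le_trans (Finset.sum_le_sum (g := fun m => |W m| * r ^ m) ?_) h.WA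
    intro m hm
    have hs1 : s ^ m ≤ 1 := pow_le_one₀ hs.1 hs.2
    have hs0 : 0 ≤ s ^ m := pow_nonneg hs.1 m
    have hr1 : 1 ≤ r ^ m := one_le_pow₀ (by linarith)
    have ha : -(W m * s ^ m) ≤ |W m| * s ^ m := by
      have := neg_abs_le (W m)
      nlinarith
    have hb : |W m| * s ^ m ≤ |W m| * r ^ m :=
      mul_le_mul_of_nonneg_left (by linarith) (abs_nonneg _)
    linarith
  -- the derivative is nonnegative on [0,1]
  have hpos : ∀ s ∈ Set.Icc (0 : ℝ) 1, 0 ≤ D.eval s * Real.exp (-(w.eval s)) +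
      C * ∑ n ∈ Ico b0 N, ((n : ℝ) + 1) * s ^ n / r ^ (n + 1) := by
    intro s hs
    have hDe : |D.eval s| ≤ (1 + A) * Real.exp Q *
        ∑ n ∈ Ico b0 N, ((n : ℝ) + 1) * s ^ n / r ^ (n + 1) := by
      rw [Polynomial.eval_eq_sum_range]
      refine le_trans (Finset.abs_sum_le_sum_abs _ _) ?_
      rw [Finset.mul_sum]
      have hsub : ∑ i ∈ range (D.natDegree + 1), |D.coeff i * s ^ i| =
          ∑ i ∈ Ico b0 N, |D.coeff i * s ^ i| := by
        symm
        apply Finset.sum_subset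
        · intro i hi
          rw [mem_Ico] at hi
          rw [mem_range]
          omega
        · intro i hi hni
          rw [mem_range] at hi
          rw [mem_Ico] at hni
          have hi0 : i < b0 := by omega
          rw [hD, h.coeff_low i hi0]
          simp
      rw [hsub]
      apply Finset.sum_le_sum
      intro n _
      rw [abs_mul, abs_of_nonneg (pow_nonneg hs.1 n)]
      have := h.coeff_high n
      calc |D.coeff n| * s ^ n
          ≤ (((n : ℝ) + 1) * ((1 + A) * Real.exp Q / r ^ (n + 1))) * s ^ n :=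
            mul_le_mul_of_nonneg_right this (pow_nonneg hs.1 n)
        _ = _ := by ring
    have hexp : Real.exp (-(w.eval s)) ≤ Real.exp A := Real.exp_le_exp.mpr (hwb s hs)
    have hS : 0 ≤ ∑ n ∈ Ico b0 N, ((n : ℝ) + 1) * s ^ n / r ^ (n + 1) := by
      apply Finset.sum_nonneg
      intro n _
      have := pow_nonneg hs.1 n
      positivity
    have h5 : |D.eval s * Real.exp (-(w.eval s))| ≤
        C * ∑ n ∈ Ico b0 N, ((n : ℝ) + 1) * s ^ n / r ^ (n + 1) := by
      rw [abs_mul, abs_of_pos (Real.exp_pos _)]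
      calc |D.eval s| * Real.exp (-(w.eval s))
          ≤ ((1 + A) * Real.exp Q * ∑ n ∈ Ico b0 N, ((n : ℝ) + 1) * s ^ n / r ^ (n + 1)) *
              Real.exp A :=
            mul_le_mul hDe hexp (Real.exp_pos _).le (by positivity)
        _ = _ := by simp only [C]; ring
    have := neg_abs_le (D.eval s * Real.exp (-(w.eval s)))
    linarith
  have hmono : MonotoneOn g (Set.Icc 0 1) := by
    apply monotoneOn_of_deriv_nonneg (convex_Icc 0 1)
    · intro s _
      exact (hg s).continuousAt.continuousWithinAt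
    · intro s _
      exact (hg s).differentiableAt.differentiableWithinAt
    · intro s hs
      rw [interior_Icc] at hs
      rw [(hg s).deriv]
      exact hpos s ⟨hs.1.le, hs.2.le⟩
  have h01 := hmono (Set.left_mem_Icc.mpr zero_le_one) (Set.right_mem_Icc.mpr zero_le_one)
    zero_le_one
  have hg0 : g 0 = 1 := by
    simp only [g, q]
    have hP0 : P.eval 0 = 1 := by
      rw [hP, eval_polF]
      rw [Finset.sum_eq_single 0]
      · simp [h.F0]
      · intro b _ hb; simp [hb]
      · intro hn; simp at hn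
    have hw0 : w.eval 0 = 0 := by
      rw [hw, eval_polW]
      apply Finset.sum_eq_zero
      intro m hm
      rw [mem_Icc] at hm
      rw [zero_pow (by omega), mul_zero]
    have hc0 : cmp b0 N r 0 = 0 := by
      unfold cmp
      apply Finset.sum_eq_zero
      intro n _
      simp
    rw [hP0, hw0, hc0]
    simp
  have hg1 : g 1 ≤ P.eval 1 * Real.exp (-(w.eval 1)) + C * (1 / r ^ b0) := by
    simp only [g, q]
    have := cmp_one_le h2 b0 N
    have hC : 0 ≤ C := by simp only [C]; positivity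
    have := mul_le_mul_of_nonneg_left this hC
    linarith
  have hw1 : w.eval 1 = ∑ m ∈ Icc 1 b0, W m := by
    rw [hw, eval_polW]; simp
  have hP1 : P.eval 1 = ∑ b ∈ range (K + 1), F b := by
    rw [hP, eval_polF]; simp
  rw [hg0] at h01
  rw [hw1, hP1] at hg1
  have hCe : C * (1 / r ^ b0) = (1 + A) * Real.exp (Q + A) / r ^ b0 := by
    simp only [C]
    rw [Real.exp_add]
    ring
  have hfin : 1 - (1 + A) * Real.exp (Q + A) / r ^ b0 ≤
      (∑ b ∈ range (K + 1), F b) * Real.exp (-(∑ m ∈ Icc 1 b0, W m)) := by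
    rw [← hCe]; linarith
  have := mul_le_mul_of_nonneg_right hfin (Real.exp_pos (∑ m ∈ Icc 1 b0, W m)).le
  refine le_trans this (le_of_eq ?_)
  rw [mul_assoc, ← Real.exp_add]
  simp

/-- Finishing lemma: `(1/2) e^{∑ W} ≤ ∑ F_b` and `(1/2) e^{-A} ≤ ∑ F_b`. -/
theorem half (h : FinHyp F W K b0 A Q r)
    (hb : (1 + A) * Real.exp (Q + A) / r ^ b0 ≤ 1 / 2) :
    1 / 2 * Real.exp (∑ m ∈ Icc 1 b0, W m) ≤ ∑ b ∈ range (K + 1), F b := by
  refine le_trans ?_ h.main
  apply mul_le_mul_of_nonneg_right _ (Real.exp_pos _).le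
  linarith

theorem half' (h : FinHyp F W K b0 A Q r)
    (hb : (1 + A) * Real.exp (Q + A) / r ^ b0 ≤ 1 / 2) :
    1 / 2 * Real.exp (-A) ≤ ∑ b ∈ range (K + 1), F b := by
  refine le_trans ?_ (h.half hb)
  apply mul_le_mul_of_nonneg_left _ (by norm_num)
  apply Real.exp_le_exp.mpr
  have h2 := h.two_le
  have h1 : |∑ m ∈ Icc 1 b0, W m| ≤ A := by
    refine le_trans (Finset.abs_sum_le_sum_abs _ _) (le_trans (Finset.sum_le_sum ?_) h.WA)
    intro m _
    have hr1 : 1 ≤ r ^ m := one_le_pow₀ (by linarith)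
    nlinarith [abs_nonneg (W m)]
  have := neg_abs_le (∑ m ∈ Icc 1 b0, W m)
  linarith

end FinHyp

/-- The logarithmic coefficients of a sequence (Newton recursion). -/
def logc (F : ℕ → ℝ) : ℕ → ℝ
  | 0 => 0
  | (n + 1) => F (n + 1) - (∑ m : Fin n, ((m : ℕ) + 1 : ℝ) * logc F (m + 1) * F (n - m)) / (n + 1)

lemma logc_rec (F : ℕ → ℝ) (h0 : F 0 = 1) (b : ℕ) (hb : 1 ≤ b) :
    (b : ℝ) * F b = ∑ m ∈ Icc 1 b, (m : ℝ) * logc F m * F (b - m) := by
  obtain ⟨n, rfl⟩ : ∃ n, b = n + 1 := ⟨b - 1, by omega⟩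
  have h1 : Icc 1 (n + 1) = insert (n + 1) ((range n).image (fun i => i + 1)) := by
    ext m
    simp only [mem_Icc, mem_insert, mem_image, mem_range]
    constructor
    · rintro ⟨h1, h2⟩
      by_cases hm : m = n + 1
      · left; exact hm
      · right; exact ⟨m - 1, by omega, by omega⟩
    · rintro (rfl | ⟨a, ha, rfl⟩)
      · omega
      · omega
  rw [h1, Finset.sum_insert, Finset.sum_image (by intro a _ b _ h; simpa using h)]
  · have h2 : logc F (n + 1) = F (n + 1) -
        (∑ i ∈ range n, ((i : ℝ) + 1) * logc F (i + 1) * F (n - i)) / (n + 1) := by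
      rw [logc]
      congr 2
      rw [← Fin.sum_univ_eq_sum_range (fun i => ((i : ℝ) + 1) * logc F (i + 1) * F (n - i)) n]
    rw [h2]
    simp only [Nat.sub_self, h0, mul_one]
    have h3 : ∀ i ∈ range n, ((i + 1 : ℕ) : ℝ) * logc F (i + 1) * F (n + 1 - (i + 1)) =
        ((i : ℝ) + 1) * logc F (i + 1) * F (n - i) := by
      intro i _
      rw [Nat.add_sub_add_right]
      push_cast
      ring
    rw [Finset.sum_congr rfl h3]
    push_cast
    have : (n : ℝ) + 1 ≠ 0 := by positivity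
    field_simp
    ring
  · simp

end

end Vale.Agent.P042.H565
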